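import Vale.Agent.P092.H370.Sp4
import Vale.Agent.P092.H714.Cl6

/-!
P092, Team P, stages 2 and 3 (helper702): the Witt index of the standard forms.
`WI σ (hyp q ε J₀) q` when `J₀` is anisotropic (`ι` empty: `Sp_2q`), and `WI id (J4 k) 2`.
-/

set_option linter.all false

open Module Set
open scoped Matrix

namespace Vale.Agent.P092.H702.WI

open Vale.Agent.P092.H303 (FormGroup hyp Idx)
open Vale.Agent.P092.H370.Po
open Vale.Agent.P092.H714.Cl

section gen

variable {n : Type} [Fintype n] [DecidableEq n] {k : Type} [Field k]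
  {σ : k →+* k} {ε : k} {J : Matrix n n k}

/-- criterion: a singular subspace which contains every isotropic vector orthogonal to it -/
theorem wi_of (hF : Frm σ ε J) {U : Submodule k (n → k)} (hU : Sing σ J U)
    (h : ∀ z, hf σ J z z = 0 → (∀ u ∈ U, hf σ J u z = 0) → z ∈ U) : WI σ J (finrank k U) := by
  refine ⟨⟨U, hU, rfl⟩, fun Y hY => ?_⟩
  by_contra hcon
  obtain ⟨Z, h1, h2, h3⟩ := exists_above hF hU hY (j := finrank k U + 1) (by omega) (by omega)
  have h4 : ¬ Z ≤ U := fun h' => by
    have := Submodule.finrank_mono h'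
    omega
  obtain ⟨z, hz, hzU⟩ := SetLike.not_le_iff_exists.1 h4
  exact hzU (h z (h2.zero hz) fun u hu => h2 u (h1 hu) z hz)

end gen

section hyp

variable {ι : Type} [Fintype ι] [DecidableEq ι] {k : Type} [Field k]
  {σ : k →+* k} {ε : k} {J₀ : Matrix ι ι k} {q : ℕ}

/-- the standard maximal singular subspace, as a map -/
def up (q : ℕ) (ι k : Type) [Field k] : (Fin q → k) →ₗ[k] (Idx q ι → k) where
  toFun f := Sum.elim (Sum.elim f 0) 0
  map_add' f g := by
    funext p
    rcases p with (i | i) | i <;> simp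
  map_smul' c f := by
    funext p
    rcases p with (i | i) | i <;> simp

theorem up_inj : Function.Injective (up q ι k) := by
  intro f g h
  funext i
  exact congrFun h (.inl (.inl i))

/-- the standard maximal singular subspace -/
def US (q : ℕ) (ι k : Type) [Field k] : Submodule k (Idx q ι → k) := LinearMap.range (up q ι k)

theorem mem_US {x : Idx q ι → k} :
    x ∈ US q ι k ↔ (∀ i, x (.inl (.inr i)) = 0) ∧ ∀ i, x (.inr i) = 0 := by
  constructor
  · rintro ⟨f, rfl⟩
    exact ⟨fun i => rfl, fun i => rfl⟩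
  · rintro ⟨h1, h2⟩
    refine ⟨fun i => x (.inl (.inl i)), ?_⟩
    funext p
    rcases p with (i | i) | i
    · rfl
    · exact (h1 i).symm
    · exact (h2 i).symm

theorem finrank_US : finrank k (US q ι k) = q := by
  rw [US, LinearMap.finrank_range_of_inj up_inj, finrank_fin_fun]

theorem sing_US : Sing σ (hyp q ε J₀) (US q ι k) := by
  intro x hx y hy
  rw [mem_US] at hx hy
  rw [hf_hyp]
  have e : (fun i => x (.inr i)) = 0 := funext hx.2
  rw [e]
  simp [hx.1, hy.1, hf]

/-- **Witt index of the standard forms** -/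
theorem wi_hyp (hF : Frm σ ε (hyp q ε J₀)) (han : ∀ y : ι → k, hf σ J₀ y y = 0 → y = 0) :
    WI σ (hyp q ε J₀) q := by
  have h := wi_of hF (U := US q ι k) sing_US (by
    intro z hz hp
    have h1 : ∀ i, z (.inl (.inr i)) = 0 := by
      intro i
      have h2 := hp (up q ι k (Pi.single i 1)) ⟨_, rfl⟩
      rw [hf_hyp] at h2
      have e1 : ∀ j : Fin q, up q ι k (Pi.single i 1) (.inl (.inl j)) =
          (Pi.single i 1 : Fin q → k) j := fun j => rfl
      have e2 : ∀ j : Fin q, up q ι k (Pi.single i 1) (.inl (.inr j)) = 0 := fun j => rfl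
      have e3 : (fun j : ι => up q ι k (Pi.single i 1) (.inr j)) = 0 := rfl
      rw [e3] at h2
      simp only [e1, e2, zero_mul, Finset.sum_const_zero, mul_zero, add_zero] at h2
      rw [Finset.sum_eq_single i (fun j _ hj => by simp [hj]) (by simp)] at h2
      have e4 : hf σ J₀ 0 (fun i => z (.inr i)) = 0 := by simp [hf]
      rw [e4, Pi.single_eq_same, one_mul, add_zero] at h2
      rwa [map_eq_zero] at h2
    refine mem_US.2 ⟨h1, fun i => congrFun (han (fun i => z (.inr i)) ?_) i⟩
    rw [hf_hyp] at hz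
    simpa [h1] using hz)
  rwa [finrank_US] at h

/-- `Sp_2q` and the other forms without anisotropic part -/
theorem wi_hyp0 [IsEmpty ι] (hF : Frm σ ε (hyp q ε J₀)) : WI σ (hyp q ε J₀) q :=
  wi_hyp hF fun y _ => Subsingleton.elim _ _

/-- `Sp_2q(k)`, any field: form and Witt index -/
theorem frm_sp [IsEmpty ι] (hq : 1 ≤ q) :
    Frm (RingHom.id k) (-1) (hyp q (-1) J₀) :=
  frm_hyp (σ := RingHom.id k) (fun x => rfl) (by ring) (by simp) frm0_empty
    ⟨1, one_ne_zero, by simp⟩ hq

theorem wi_sp [IsEmpty ι] (hq : 1 ≤ q) :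
    WI (RingHom.id k) (hyp q (-1) J₀) q := wi_hyp0 (frm_sp hq)

end hyp

section sp4

variable {k : Type} [Field k]

/-- the standard line of `Sp_4`, as a map -/
def up4 (k : Type) [Field k] : (Fin 2 → k) →ₗ[k] (Fin 4 → k) where
  toFun f := ![f 0, f 1, 0, 0]
  map_add' f g := by
    funext p
    fin_cases p <;> simp
  map_smul' c f := by
    funext p
    fin_cases p <;> simp

theorem up4_inj : Function.Injective (up4 k) := by
  intro f g h
  funext i
  fin_cases i
  · exact congrFun h 0
  · exact congrFun h 1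

theorem mem_up4 {x : Fin 4 → k} : x ∈ LinearMap.range (up4 k) ↔ x 2 = 0 ∧ x 3 = 0 := by
  constructor
  · rintro ⟨f, rfl⟩
    exact ⟨rfl, rfl⟩
  · rintro ⟨h1, h2⟩
    refine ⟨![x 0, x 1], ?_⟩
    funext p
    fin_cases p
    · rfl
    · rfl
    · exact h1.symm
    · exact h2.symm

open Vale.Agent.P092.SP4 in
theorem frm_J4 : Frm (RingHom.id k) (-1) (J4 k) where
  inv x := rfl
  eps := by ring
  seps := by simp
  herm x y := by
    change om y x = -1 * om x y
    rw [om_swap]; ring
  nondeg x hx := by
    by_contra hcon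
    push Not at hcon
    have h : ∀ y, om x y = 0 := hcon
    refine hx ?_
    have h0 := h (Pi.single 0 1)
    have h1 := h (Pi.single 1 1)
    have h2 := h (Pi.single 2 1)
    have h3 := h (Pi.single 3 1)
    rw [om_eq] at h0 h1 h2 h3
    funext p
    fin_cases p
    · simpa using h3
    · simpa using h2
    · simpa using h1
    · simpa using h0
  tv y := ⟨0, by
    change om y y = _
    rw [om_self]; simp⟩
  iso := ⟨Pi.single 0 1, by simp, om_self _⟩
  cc := ⟨1, one_ne_zero, by simp⟩

open Vale.Agent.P092.SP4 in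
/-- **Witt index of `J4`** -/
theorem wi_J4 : WI (RingHom.id k) (J4 k) 2 := by
  have h := wi_of (frm_J4 (k := k)) (U := LinearMap.range (up4 k)) (by
    intro x hx y hy
    rw [mem_up4] at hx hy
    change om x y = 0
    rw [om_eq, hx.1, hx.2, hy.1, hy.2]
    ring) (by
    intro z hz hp
    have h0 := hp (Pi.single 0 1) (mem_up4.2 (by simp))
    have h1 := hp (Pi.single 1 1) (mem_up4.2 (by simp))
    change om _ z = 0 at h0 h1
    rw [om_eq] at h0 h1
    refine mem_up4.2 ⟨?_, ?_⟩
    · simpa using h1
    · simpa using h0)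
  rwa [LinearMap.finrank_range_of_inj up4_inj, finrank_fin_fun] at h

end sp4

end Vale.Agent.P092.H702.WI
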