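import Mathlib

/-!
P092, Team P, block [CELLS] (helper702): partitions of unity on the real projective space
(points = projections of rank one), of mesh `ε`, with at most `C / ε` members near any line
(lines = projections of rank two).
-/

namespace Vale.Agent.P092.H702

open Finset Matrix

variable {n : ℕ}

/-- points: projections of rank one -/
def Pt (P : Matrix (Fin n) (Fin n) ℝ) : Prop :=
  ∃ u : Fin n → ℝ, u ⬝ᵥ u = 1 ∧ P = vecMulVec u u

/-- lines: projections of rank two -/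
def Ln (Q : Matrix (Fin n) (Fin n) ℝ) : Prop :=
  ∃ u v : Fin n → ℝ, u ⬝ᵥ u = 1 ∧ v ⬝ᵥ v = 1 ∧ u ⬝ᵥ v = 0 ∧ Q = vecMulVec u u + vecMulVec v v

namespace Cells

/-- the hat of width one at the integer `j` -/
noncomputable def hat (j : ℤ) (s : ℝ) : ℝ := max 0 (1 - |s - j|)

theorem hat_nonneg (j : ℤ) (s : ℝ) : 0 ≤ hat j s := le_max_left _ _

theorem hat_cont (j : ℤ) : Continuous (hat j) := by
  unfold hat
  fun_prop

theorem hat_ne {j : ℤ} {s : ℝ} (h : hat j s ≠ 0) : |s - j| < 1 := by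
  by_contra hc
  push Not at hc
  refine h ?_
  unfold hat
  exact max_eq_left (by linarith)

theorem sum_hat {N : ℕ} {s : ℝ} (h : |s| ≤ N) :
    ∑ j ∈ Finset.Icc (-(N : ℤ) - 1) (N + 1), hat j s = 1 := by
  obtain ⟨h1, h2⟩ := abs_le.1 h
  set m : ℤ := ⌊s⌋ with hm
  have hm1 : (m : ℝ) ≤ s := Int.floor_le s
  have hm2 : s < m + 1 := Int.lt_floor_add_one s
  have a1 : -(N : ℤ) ≤ m := Int.le_floor.2 (by push_cast; linarith)
  have a2 : m ≤ N := by
    have : (m : ℝ) ≤ (N : ℤ) := by push_cast; linarith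
    exact_mod_cast this
  have hs : ({m, m + 1} : Finset ℤ) ⊆ Finset.Icc (-(N : ℤ) - 1) (N + 1) := by
    intro j hj
    simp only [Finset.mem_insert, Finset.mem_singleton] at hj
    rw [Finset.mem_Icc]
    omega
  rw [← Finset.sum_subset hs]
  · rw [Finset.sum_pair (by omega)]
    unfold hat
    have e1 : |s - (m : ℝ)| = s - m := abs_of_nonneg (by linarith)
    have e2 : |s - ((m + 1 : ℤ) : ℝ)| = m + 1 - s := by
      rw [abs_sub_comm]
      push_cast
      exact abs_of_nonneg (by linarith)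
    rw [e1, e2, max_eq_right (by linarith), max_eq_right (by linarith)]
    ring
  · intro j _ hj
    by_contra hc
    have h3 := abs_lt.1 (hat_ne hc)
    refine hj ?_
    simp only [Finset.mem_insert, Finset.mem_singleton]
    have b1 : (m : ℝ) < j + 1 := by linarith [h3.2]
    have b2 : (j : ℝ) < m + 2 := by linarith [h3.1]
    have c1 : m < j + 1 := by exact_mod_cast b1
    have c2 : j < m + 2 := by exact_mod_cast b2
    omega

/-- the cut-off of the grid cell `α` of mesh `d` -/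
noncomputable def chi (d : ℝ) (α : Fin n × Fin n → ℤ) : C(Matrix (Fin n) (Fin n) ℝ, ℝ) where
  toFun P := ∏ e : Fin n × Fin n, Real.sqrt (hat (α e) (P e.1 e.2 / d))
  continuous_toFun := by
    refine continuous_finsetProd _ fun e _ => ?_
    have h1 : Continuous fun P : Matrix (Fin n) (Fin n) ℝ => P e.1 e.2 / d := by
      have : Continuous fun P : Matrix (Fin n) (Fin n) ℝ => P e.1 e.2 :=
        (continuous_apply e.2).comp (continuous_apply e.1)
      exact this.div_const d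
    exact Real.continuous_sqrt.comp ((hat_cont _).comp h1)

theorem chi_sq (d : ℝ) (α : Fin n × Fin n → ℤ) (P : Matrix (Fin n) (Fin n) ℝ) :
    chi d α P ^ 2 = ∏ e : Fin n × Fin n, hat (α e) (P e.1 e.2 / d) := by
  change (∏ e : Fin n × Fin n, Real.sqrt (hat (α e) (P e.1 e.2 / d))) ^ 2 = _
  rw [← Finset.prod_pow]
  exact Finset.prod_congr rfl fun e _ => Real.sq_sqrt (hat_nonneg _ _)

theorem chi_ne {d : ℝ} {α : Fin n × Fin n → ℤ} {P : Matrix (Fin n) (Fin n) ℝ}
    (h : chi d α P ≠ 0) (e : Fin n × Fin n) : |P e.1 e.2 / d - α e| < 1 := by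
  refine hat_ne fun h0 => h ?_
  change (∏ e : Fin n × Fin n, Real.sqrt (hat (α e) (P e.1 e.2 / d))) = 0
  refine Finset.prod_eq_zero (mem_univ e) ?_
  rw [h0, Real.sqrt_zero]

theorem sum_chi {d : ℝ} {N : ℕ} {P : Matrix (Fin n) (Fin n) ℝ}
    (h : ∀ e : Fin n × Fin n, |P e.1 e.2 / d| ≤ N) :
    ∑ α ∈ Fintype.piFinset (fun _ : Fin n × Fin n => Finset.Icc (-(N : ℤ) - 1) (N + 1)),
      chi d α P ^ 2 = 1 := by
  simp only [chi_sq]
  rw [← Finset.prod_univ_sum (fun _ : Fin n × Fin n => Finset.Icc (-(N : ℤ) - 1) (N + 1))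
    (fun e j => hat j (P e.1 e.2 / d))]
  exact Finset.prod_eq_one fun e _ => sum_hat (h e)

theorem coord_le {u : Fin n → ℝ} (hu : u ⬝ᵥ u = 1) (i : Fin n) : |u i| ≤ 1 := by
  have h : u i * u i ≤ 1 := by
    rw [← hu]
    exact Finset.single_le_sum (f := fun k => u k * u k) (fun k _ => mul_self_nonneg _)
      (mem_univ i)
  exact abs_le_one_iff_mul_self_le_one.2 h

theorem pt_le {P : Matrix (Fin n) (Fin n) ℝ} (h : Pt P) (i j : Fin n) : |P i j| ≤ 1 := by
  obtain ⟨u, hu, rfl⟩ := h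
  rw [vecMulVec_apply, abs_mul]
  exact mul_le_one₀ (coord_le hu i) (abs_nonneg _) (coord_le hu j)

theorem vmv_sub {w w' : Fin n → ℝ} {δ : ℝ} (h1 : ∀ i, |w i| ≤ 1) (h2 : ∀ i, |w' i| ≤ 1)
    (h : ∀ i, |w i - w' i| ≤ δ) (i j : Fin n) :
    |vecMulVec w w i j - vecMulVec w' w' i j| ≤ 2 * δ := by
  rw [vecMulVec_apply, vecMulVec_apply]
  have e : w i * w j - w' i * w' j = w i * (w j - w' j) + (w i - w' i) * w' j := by ring
  have hδ : 0 ≤ δ := (abs_nonneg _).trans (h i)
  rw [e]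
  calc |w i * (w j - w' j) + (w i - w' i) * w' j|
      ≤ |w i * (w j - w' j)| + |(w i - w' i) * w' j| := abs_add_le _ _
    _ = |w i| * |w j - w' j| + |w i - w' i| * |w' j| := by rw [abs_mul, abs_mul]
    _ ≤ 1 * δ + δ * 1 := by
        gcongr
        · exact h1 i
        · exact h j
        · exact h i
        · exact h2 j
    _ = 2 * δ := by ring

/-- the point of the line `<u, v>` at angle `t` -/
noncomputable def arc (u v : Fin n → ℝ) (t : ℝ) : Fin n → ℝ :=
  fun i => Real.cos t * u i + Real.sin t * v i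

theorem arc_unit {u v : Fin n → ℝ} (hu : u ⬝ᵥ u = 1) (hv : v ⬝ᵥ v = 1) (huv : u ⬝ᵥ v = 0)
    (t : ℝ) : arc u v t ⬝ᵥ arc u v t = 1 := by
  have e : arc u v t ⬝ᵥ arc u v t = Real.cos t ^ 2 * (u ⬝ᵥ u) + Real.sin t ^ 2 * (v ⬝ᵥ v)
      + 2 * (Real.cos t * Real.sin t) * (u ⬝ᵥ v) := by
    simp only [dotProduct, arc, Finset.mul_sum, ← Finset.sum_add_distrib]
    exact Finset.sum_congr rfl fun i _ => by ring
  rw [e, hu, hv, huv, mul_one, mul_one, mul_zero, add_zero]
  exact Real.cos_sq_add_sin_sq t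

theorem arc_sub {u v : Fin n → ℝ} (hu : u ⬝ᵥ u = 1) (hv : v ⬝ᵥ v = 1) (s t : ℝ) (i : Fin n) :
    |arc u v s i - arc u v t i| ≤ 2 * |s - t| := by
  have e : arc u v s i - arc u v t i
      = (Real.cos s - Real.cos t) * u i + (Real.sin s - Real.sin t) * v i := by
    unfold arc; ring
  have h1 : |Real.cos s - Real.cos t| ≤ |s - t| := by
    have := Real.abs_cos_sub_cos_le s t
    exact this
  have h2 : |Real.sin s - Real.sin t| ≤ |s - t| := Real.abs_sin_sub_sin_le s t
  rw [e]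
  calc _ ≤ |(Real.cos s - Real.cos t) * u i| + |(Real.sin s - Real.sin t) * v i| := abs_add_le _ _
    _ = |Real.cos s - Real.cos t| * |u i| + |Real.sin s - Real.sin t| * |v i| := by
        rw [abs_mul, abs_mul]
    _ ≤ |s - t| * 1 + |s - t| * 1 := by
        gcongr
        · exact coord_le hu i
        · exact coord_le hv i
    _ = 2 * |s - t| := by ring

/-- polar coordinates in the unit disc -/
theorem polar {a b : ℝ} (h : a ^ 2 + b ^ 2 ≤ 1) : ∃ t : ℝ, 0 ≤ t ∧ t ≤ 2 * Real.pi ∧ ∃ ρ : ℝ,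
    0 ≤ ρ ∧ ρ ≤ 1 ∧ ρ ^ 2 = a ^ 2 + b ^ 2 ∧ a = ρ * Real.cos t ∧ b = ρ * Real.sin t := by
  set z : ℂ := ⟨a, b⟩ with hz
  have hn : ‖z‖ ^ 2 = a ^ 2 + b ^ 2 := by
    rw [← Complex.normSq_eq_norm_sq, Complex.normSq_apply, hz]
    ring
  have h1 : ‖z‖ ≤ 1 := by
    have : ‖z‖ ^ 2 ≤ 1 := by rw [hn]; exact h
    nlinarith [norm_nonneg z]
  have hc : a = ‖z‖ * Real.cos z.arg := by
    have := Complex.norm_mul_cos_arg z
    rw [this]
  have hs : b = ‖z‖ * Real.sin z.arg := by
    have := Complex.norm_mul_sin_arg z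
    rw [this]
  have ha1 := Complex.neg_pi_lt_arg z
  have ha2 := Complex.arg_le_pi z
  by_cases h0 : 0 ≤ z.arg
  · exact ⟨z.arg, h0, by linarith [Real.pi_pos], ‖z‖, norm_nonneg _, h1, hn, hc, hs⟩
  · push Not at h0
    refine ⟨z.arg + 2 * Real.pi, by linarith, by linarith, ‖z‖, norm_nonneg _, h1, hn, ?_, ?_⟩
    · rw [Real.cos_add_two_pi]; exact hc
    · rw [Real.sin_add_two_pi]; exact hs

/-- a point close to a line is close to a point of the line -/
theorem near_arc {u v w : Fin n → ℝ} (hu : u ⬝ᵥ u = 1) (hv : v ⬝ᵥ v = 1) (huv : u ⬝ᵥ v = 0)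
    (hw : w ⬝ᵥ w = 1) {δ : ℝ}
    (h : ∀ i j, |((1 - (vecMulVec u u + vecMulVec v v)) * vecMulVec w w) i j| ≤ δ) :
    ∃ t : ℝ, 0 ≤ t ∧ t ≤ 2 * Real.pi ∧ ∀ i, |w i - arc u v t i| ≤ (n + n * n) * δ := by
  set a := u ⬝ᵥ w with ha
  set b := v ⬝ᵥ w with hb
  set e : Fin n → ℝ := fun i => w i - a * u i - b * v i with he
  have hent : ∀ i j, ((1 - (vecMulVec u u + vecMulVec v v)) * vecMulVec w w) i j = e i * w j := by
    intro i j
    rw [Matrix.sub_mul, Matrix.one_mul, Matrix.add_mul, Matrix.sub_apply, Matrix.add_apply,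
      Matrix.mul_apply, Matrix.mul_apply]
    simp only [vecMulVec_apply, he, ha, hb, dotProduct]
    have e1 : ∑ k, u i * u k * (w k * w j) = (∑ k, u k * w k) * u i * w j := by
      rw [Finset.sum_mul, Finset.sum_mul]
      exact Finset.sum_congr rfl fun k _ => by ring
    have e2 : ∑ k, v i * v k * (w k * w j) = (∑ k, v k * w k) * v i * w j := by
      rw [Finset.sum_mul, Finset.sum_mul]
      exact Finset.sum_congr rfl fun k _ => by ring
    rw [e1, e2]
    ring
  simp only [hent] at h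
  have hei : ∀ i, |e i| ≤ n * δ := by
    intro i
    have e1 : e i = ∑ j, (e i * w j) * w j := by
      have : ∑ j, (e i * w j) * w j = e i * (w ⬝ᵥ w) := by
        rw [dotProduct, Finset.mul_sum]
        exact Finset.sum_congr rfl fun j _ => by ring
      rw [this, hw, mul_one]
    rw [e1]
    calc |∑ j, (e i * w j) * w j| ≤ ∑ j, |(e i * w j) * w j| := Finset.abs_sum_le_sum_abs _ _
      _ ≤ ∑ _j : Fin n, δ := by
          refine Finset.sum_le_sum fun j _ => ?_
          rw [abs_mul]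
          have hδ : 0 ≤ δ := (abs_nonneg _).trans (h i j)
          calc |e i * w j| * |w j| ≤ δ * 1 := by
                gcongr
                · exact h i j
                · exact coord_le hw j
            _ = δ := mul_one _
      _ = n * δ := by rw [Finset.sum_const, Finset.card_univ, Fintype.card_fin, nsmul_eq_mul]
  have hpy : e ⬝ᵥ e = 1 - (a ^ 2 + b ^ 2) := by
    have : e ⬝ᵥ e = w ⬝ᵥ w + a ^ 2 * (u ⬝ᵥ u) + b ^ 2 * (v ⬝ᵥ v) - 2 * a * (u ⬝ᵥ w)
        - 2 * b * (v ⬝ᵥ w) + 2 * (a * b) * (u ⬝ᵥ v) := by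
      simp only [dotProduct, he, Finset.mul_sum, ← Finset.sum_add_distrib,
        ← Finset.sum_sub_distrib]
      exact Finset.sum_congr rfl fun i _ => by ring
    rw [this, hu, hv, huv, hw, ← ha, ← hb]
    ring
  have hpos : 0 ≤ e ⬝ᵥ e := Finset.sum_nonneg fun i _ => mul_self_nonneg _
  have hab : a ^ 2 + b ^ 2 ≤ 1 := by linarith
  obtain ⟨t, ht0, ht1, ρ, hρ0, hρ1, hρ, hc, hs⟩ := polar hab
  have hee : e ⬝ᵥ e ≤ n * (n * δ) := by
    have hle : e ⬝ᵥ e ≤ 1 := by nlinarith [sq_nonneg a, sq_nonneg b]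
    have hi : ∀ i, |e i| ≤ 1 := by
      intro i
      refine abs_le_one_iff_mul_self_le_one.2 (le_trans ?_ hle)
      exact Finset.single_le_sum (f := fun k => e k * e k) (fun k _ => mul_self_nonneg _)
        (mem_univ i)
    calc e ⬝ᵥ e = ∑ i, |e i| * |e i| :=
          Finset.sum_congr rfl fun i _ => by rw [abs_mul_abs_self]
      _ ≤ ∑ _i : Fin n, (n * δ) := by
          refine Finset.sum_le_sum fun i _ => ?_
          calc |e i| * |e i| ≤ |e i| * 1 := by gcongr; exact hi i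
            _ ≤ n * δ := by rw [mul_one]; exact hei i
      _ = n * (n * δ) := by
          rw [Finset.sum_const, Finset.card_univ, Fintype.card_fin, nsmul_eq_mul]
  have hρ2 : 1 - ρ ≤ n * (n * δ) := by nlinarith
  refine ⟨t, ht0, ht1, fun i => ?_⟩
  have e1 : w i - arc u v t i = e i - (1 - ρ) * arc u v t i := by
    simp only [he, arc]
    rw [hc, hs]
    ring
  rw [e1]
  calc |e i - (1 - ρ) * arc u v t i| ≤ |e i| + |(1 - ρ) * arc u v t i| := abs_sub _ _
    _ = |e i| + (1 - ρ) * |arc u v t i| := by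
        rw [abs_mul, abs_of_nonneg (show (0:ℝ) ≤ 1 - ρ by linarith)]
    _ ≤ n * δ + (n * (n * δ)) * 1 := by
        gcongr
        · exact hei i
        · exact (by linarith : (0:ℝ) ≤ 1 - ρ).trans hρ2
        · exact coord_le (arc_unit hu hv huv t) i
    _ = (n + n * n) * δ := by ring

/-- the number of grid cells which have a point near a given line -/
theorem card_le {ε : ℝ} (hε : 0 < ε) (hε1 : ε < 1) {M : ℝ} {u v : Fin n → ℝ}
    (hu : u ⬝ᵥ u = 1) (hv : v ⬝ᵥ v = 1) (huv : u ⬝ᵥ v = 0) (A : Finset (Fin n × Fin n → ℤ))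
    (hA : ∀ α ∈ A, ∃ w : Fin n → ℝ, w ⬝ᵥ w = 1 ∧ chi (ε / 2) α (vecMulVec w w) ≠ 0 ∧
      ∀ i j, |((1 - (vecMulVec u u + vecMulVec v v)) * vecMulVec w w) i j| ≤ M * ε) {L : ℕ}
    (hL : 4 * ((n + n * n) * M + 2) + 2 ≤ L) :
    (A.card : ℝ) ≤ 8 * (2 * L + 1) ^ (n * n) / ε := by
  classical
  set K : ℕ := ⌊2 * Real.pi / ε⌋₊ + 1 with hK
  set c : ℕ → (Fin n × Fin n) → ℤ := fun k e =>
    ⌊vecMulVec (arc u v (k * ε)) (arc u v (k * ε)) e.1 e.2 / (ε / 2)⌋ with hc
  have hsub : A ⊆ ((Finset.range K) ×ˢ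
      (Fintype.piFinset (fun _ : Fin n × Fin n => Finset.Icc (-(L : ℤ)) L))).image
      (fun q => fun e => c q.1 e + q.2 e) := by
    intro α hα
    obtain ⟨w, hw, hw1, hw2⟩ := hA α hα
    obtain ⟨t, ht0, ht1, ht⟩ := near_arc hu hv huv hw hw2
    set k : ℕ := ⌊t / ε⌋₊ with hk
    have hk1 : (k : ℝ) ≤ t / ε := Nat.floor_le (by positivity)
    have hk2 : t / ε < k + 1 := Nat.lt_floor_add_one _
    have hk3 : |t - k * ε| ≤ ε := by
      have h1 : (k : ℝ) * ε ≤ t := by
        have := mul_le_mul_of_nonneg_right hk1 hε.le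
        rwa [div_mul_cancel₀ _ hε.ne'] at this
      have h2 : t ≤ (k + 1) * ε := by
        have := mul_le_mul_of_nonneg_right hk2.le hε.le
        rwa [div_mul_cancel₀ _ hε.ne'] at this
      rw [abs_of_nonneg (by linarith)]
      linarith
    have hkK : k < K := by
      rw [hK, Nat.lt_succ_iff]
      exact Nat.floor_le_floor (by gcongr)
    have hwa : ∀ i, |w i - arc u v (k * ε) i| ≤ ((n + n * n) * M + 2) * ε := by
      intro i
      calc |w i - arc u v (k * ε) i|
          = |(w i - arc u v t i) + (arc u v t i - arc u v (k * ε) i)| := by ring_nf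
        _ ≤ |w i - arc u v t i| + |arc u v t i - arc u v (k * ε) i| := abs_add_le _ _
        _ ≤ (n + n * n) * (M * ε) + 2 * |t - k * ε| := add_le_add (ht i) (arc_sub hu hv _ _ i)
        _ ≤ (n + n * n) * (M * ε) + 2 * ε := by gcongr
        _ = ((n + n * n) * M + 2) * ε := by ring
    have hP := vmv_sub (fun i => coord_le hw i)
      (fun i => coord_le (arc_unit hu hv huv (k * ε)) i) hwa
    rw [Finset.mem_image]
    refine ⟨(k, fun e => α e - c k e), ?_, ?_⟩
    · rw [Finset.mem_product]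
      refine ⟨Finset.mem_range.2 hkK, ?_⟩
      rw [Fintype.mem_piFinset]
      intro e
      rw [Finset.mem_Icc]
      have h1 := abs_lt.1 (chi_ne hw1 e)
      have h2 := abs_le.1 (hP e.1 e.2)
      set x := vecMulVec w w e.1 e.2
      set y := vecMulVec (arc u v (k * ε)) (arc u v (k * ε)) e.1 e.2
      have h3 : (c k e : ℝ) ≤ y / (ε / 2) := Int.floor_le _
      have h4 : y / (ε / 2) < c k e + 1 := Int.lt_floor_add_one _
      have h5 : |x / (ε / 2) - y / (ε / 2)| ≤ 4 * ((n + n * n) * M + 2) := by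
        rw [← sub_div, abs_div, abs_of_pos (half_pos hε), div_le_iff₀ (half_pos hε)]
        refine (abs_le.2 h2).trans (le_of_eq (by ring))
      have h6 := abs_le.1 h5
      have g1 : (-(L : ℤ) : ℝ) ≤ ((α e - c k e : ℤ) : ℝ) := by
        push_cast
        linarith [h1.2]
      have g2 : ((α e - c k e : ℤ) : ℝ) ≤ ((L : ℤ) : ℝ) := by
        push_cast
        linarith [h1.1]
      refine ⟨?_, by exact_mod_cast g2⟩
      have g3 : ((-(L : ℤ) : ℤ) : ℝ) ≤ ((α e - c k e : ℤ) : ℝ) := by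
        push_cast at g1 ⊢
        exact g1
      exact_mod_cast g3
    · funext e
      simp
  have hcard : A.card ≤ K * (2 * L + 1) ^ (n * n) := by
    refine (Finset.card_le_card hsub).trans (Finset.card_image_le.trans ?_)
    rw [Finset.card_product, Finset.card_range, Fintype.card_piFinset]
    simp only [Int.card_Icc, Finset.prod_const, Finset.card_univ, Fintype.card_prod,
      Fintype.card_fin]
    refine Nat.mul_le_mul_left _ ?_
    refine Nat.pow_le_pow_left ?_ _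
    omega
  have hK2 : (K : ℝ) ≤ 8 / ε := by
    rw [hK]
    push_cast
    have h1 : (⌊2 * Real.pi / ε⌋₊ : ℝ) ≤ 2 * Real.pi / ε := Nat.floor_le (by positivity)
    have h2 : 2 * Real.pi ≤ 7 := by linarith [Real.pi_lt_d2]
    have h3 : 2 * Real.pi / ε ≤ 7 / ε := by gcongr
    have h4 : 1 ≤ 1 / ε := by rw [le_div_iff₀ hε]; linarith
    have h5 : 8 / ε = 7 / ε + 1 / ε := by ring
    rw [h5]
    linarith
  calc (A.card : ℝ) ≤ ((K * (2 * L + 1) ^ (n * n) : ℕ) : ℝ) := by exact_mod_cast hcard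
    _ = (K : ℝ) * (2 * L + 1) ^ (n * n) := by push_cast; ring
    _ ≤ (8 / ε) * (2 * L + 1) ^ (n * n) := by gcongr
    _ = 8 * (2 * L + 1) ^ (n * n) / ε := by ring

end Cells

open Classical in
/-- **[CELLS]**: for every mesh `ε` a finite partition of unity (in squares) of the real projective
space into pieces of diameter `≤ ε` in the matrix coordinates, such that the number of pieces near
any line is `≤ C / ε`. -/
theorem cells (n : ℕ) (M : ℝ) : ∃ C : ℝ, 0 < C ∧ ∀ ε : ℝ, 0 < ε → ε < 1 →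
    ∃ (ι : Type) (_ : Fintype ι) (χ : ι → C(Matrix (Fin n) (Fin n) ℝ, ℝ))
      (p : ι → Matrix (Fin n) (Fin n) ℝ),
      (∀ a, Pt (p a)) ∧ (∀ a P, 0 ≤ χ a P) ∧ (∀ P, Pt P → ∑ a, χ a P ^ 2 = 1) ∧
      (∀ a P, Pt P → χ a P ≠ 0 → ∀ i j, |P i j - p a i j| ≤ ε) ∧
      ∀ Q : Matrix (Fin n) (Fin n) ℝ, Ln Q →
        ((univ.filter fun a => ∀ i j, |((1 - Q) * p a) i j| ≤ M * ε).card : ℝ) ≤ C / ε := by
  obtain ⟨L, hL⟩ := exists_nat_ge (4 * ((n + n * n) * max M 0 + 2) + 2)
  refine ⟨8 * (2 * L + 1) ^ (n * n), by positivity, fun ε hε hε1 => ?_⟩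
  obtain ⟨N, hN⟩ := exists_nat_ge (2 / ε)
  set S : Finset (Fin n × Fin n → ℤ) :=
    (Fintype.piFinset (fun _ : Fin n × Fin n => Finset.Icc (-(N : ℤ) - 1) (N + 1))).filter
      (fun α => ∃ P, Pt P ∧ Cells.chi (ε / 2) α P ≠ 0) with hS
  have hex : ∀ a : S, ∃ P, Pt P ∧ Cells.chi (ε / 2) a.1 P ≠ 0 := fun a =>
    (Finset.mem_filter.1 a.2).2
  choose p hp hpc using hex
  refine ⟨S, inferInstance, fun a => Cells.chi (ε / 2) a.1, p, hp, ?_, ?_, ?_, ?_⟩
  · intro a P
    exact Finset.prod_nonneg fun e _ => Real.sqrt_nonneg _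
  · intro P hP
    have h1 : ∀ e : Fin n × Fin n, |P e.1 e.2 / (ε / 2)| ≤ N := by
      intro e
      rw [abs_div, abs_of_pos (half_pos hε), div_le_iff₀ (half_pos hε)]
      have h2 := Cells.pt_le hP e.1 e.2
      have h3 : 1 ≤ N * (ε / 2) := by
        rw [div_le_iff₀ hε] at hN
        linarith
      linarith
    rw [← Cells.sum_chi h1, Finset.sum_coe_sort S (fun α => Cells.chi (ε / 2) α P ^ 2), hS]
    refine Finset.sum_filter_of_ne fun α _ hne => ⟨P, hP, fun h0 => hne ?_⟩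
    rw [h0]; simp
  · intro a P _ hne i j
    have h1 := abs_lt.1 (Cells.chi_ne hne (i, j))
    have h2 := abs_lt.1 (Cells.chi_ne (hpc a) (i, j))
    have h3 : |P i j / (ε / 2) - p a i j / (ε / 2)| ≤ 2 := by
      rw [abs_le]
      constructor <;> simp only at h1 h2 <;> linarith [h1.1, h1.2, h2.1, h2.2]
    rw [← sub_div, abs_div, abs_of_pos (half_pos hε), div_le_iff₀ (half_pos hε)] at h3
    linarith
  · rintro Q ⟨u, v, hu, hv, huv, rfl⟩
    set F := univ.filter fun a : S => ∀ i j,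
      |((1 - (vecMulVec u u + vecMulVec v v)) * p a) i j| ≤ M * ε with hF
    have h1 : F.card = (F.map ⟨Subtype.val, Subtype.val_injective⟩).card := (Finset.card_map _).symm
    rw [h1]
    refine Cells.card_le hε hε1 hu hv huv _ ?_ hL
    intro α hα
    rw [Finset.mem_map] at hα
    obtain ⟨a, ha, rfl⟩ := hα
    obtain ⟨w, hw, hw2⟩ := hp a
    refine ⟨w, hw, ?_, fun i j => ?_⟩
    · rw [← hw2]; exact hpc a
    · rw [← hw2]
      refine ((Finset.mem_filter.1 ha).2 i j).trans ?_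
      gcongr
      exact le_max_left _ _

end Vale.Agent.P092.H702
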