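import Vale.Agent.P092.H702.TG2
import Vale.Agent.P092.H702.SG1
import Vale.Agent.P092.H766.P2Defs

/-!
P092, Team P, stage 2 (helper702): the geometry fields of `H766.P2.PkData` for the singular
Grassmannians `YS σ J r e` (any form `Frm σ ε J`, `σ` continuous, any local field), and the
facts of a polar space needed by the opposite step: two different spaces lie in at most one
common space of the next dimension, orthogonality of a join, maximal spaces.
-/

set_option linter.all false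

open TopologicalSpace Topology Module Set Filter
open scoped Matrix

namespace Vale.Agent.P092.H702.PG

open Vale.Agent.P092.H303 (FormGroup)
open Vale.Agent.P092.H100.Gr
open Vale.Agent.P092.H370.Po
open Vale.Agent.P092.H714.Cl
open Vale.Agent.P092.H702.TG

section alg

variable {n : Type} [Fintype n] [DecidableEq n] {k : Type} [Field k]
  {σ : k →+* k} {ε : k} {J : Matrix n n k} {i j l : ℕ}

/-- two different `j`-spaces inside a `(j+1)`-space span it -/
theorem sup_eq {x y : SGr σ J j} {z : SGr σ J (j + 1)} (hne : x ≠ y) (hx : Inc x z)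
    (hy : Inc y z) : x.S ⊔ y.S = z.S := by
  have h4 : x.S ⊔ y.S ≤ z.S := sup_le hx hy
  have h1 : finrank k ↥(x.S ⊔ y.S) ≤ j + 1 := (Submodule.finrank_mono h4).trans_eq z.dim
  refine Submodule.eq_of_le_of_finrank_eq h4 ?_
  rw [z.dim]
  by_contra hcon
  have h6 : finrank k x.S = finrank k ↥(x.S ⊔ y.S) := by
    refine le_antisymm (Submodule.finrank_mono le_sup_left) ?_
    rw [x.dim]
    omega
  have h7 : x.S = x.S ⊔ y.S := Submodule.eq_of_le_of_finrank_eq le_sup_left h6
  have h8 : y.S ≤ x.S := by rw [h7]; exact le_sup_right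
  exact hne (SGr.eq_of_le (X := y) (Y := x) h8).symm

/-- two different `j`-spaces lie in at most one common `(j+1)`-space -/
theorem uniq {x y : SGr σ J j} {z z' : SGr σ J (j + 1)} (hne : x ≠ y) (hx : Inc x z)
    (hy : Inc y z) (hx' : Inc x z') (hy' : Inc y z') : z = z' :=
  SGr.ext ((sup_eq hne hx hy).symm.trans (sup_eq hne hx' hy'))

/-- orthogonality of a join -/
theorem ort_join {x y : SGr σ J j} {z : SGr σ J (j + 1)} {w : SGr σ J i} (hne : x ≠ y)
    (hx : Inc x z) (hy : Inc y z) (h1 : Col x w) (h2 : Col y w) : Col z w := by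
  unfold Col
  rw [← sup_eq hne hx hy]
  exact ort_sup_left.2 ⟨h1, h2⟩

theorem Col.mono {i j i' j' : ℕ} {x : SGr σ J i} {y : SGr σ J j} {x' : SGr σ J i'}
    {y' : SGr σ J j'} (h : Col x y) (h1 : Inc x' x) (h2 : Inc y' y) : Col x' y' :=
  Ort.mono h h1 h2

theorem Col.symm (hF : Frm σ ε J) {x : SGr σ J i} {y : SGr σ J j} (h : Col x y) : Col y x :=
  Ort.symm hF h

/-- orthogonal maximal spaces are equal -/
theorem eq_of_col_max (hF : Frm σ ε J) {r : ℕ} (hW : WI σ J r) {x y : SGr σ J r}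
    (h : Col x y) : x = y := by
  have hs : Sing σ J (x.S ⊔ y.S) :=
    ort_sup_left.2 ⟨ort_sup_right.2 ⟨x.sing, h⟩, ort_sup_right.2 ⟨Ort.symm hF h, y.sing⟩⟩
  have h1 : finrank k ↥(x.S ⊔ y.S) ≤ r := hW.2 _ hs
  have h2 : x.S = x.S ⊔ y.S := Submodule.eq_of_le_of_finrank_le le_sup_left (by rw [x.dim]; exact h1)
  have h3 : y.S ≤ x.S := by rw [h2]; exact le_sup_right
  exact (SGr.eq_of_le (X := y) (Y := x) h3).symm

/-- orthogonal different `j`-spaces with a common `(j-1)`-space span a singular `(j+1)`-space -/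
theorem join_of_col (hF : Frm σ ε J) {x y : SGr σ J (j + 1)} {a : SGr σ J j} (hne : x ≠ y)
    (hx : Inc a x) (hy : Inc a y) (h : Col x y) :
    ∃ z : SGr σ J (j + 1 + 1), Inc x z ∧ Inc y z := by
  have hs : Sing σ J (x.S ⊔ y.S) :=
    ort_sup_left.2 ⟨ort_sup_right.2 ⟨x.sing, h⟩, ort_sup_right.2 ⟨Ort.symm hF h, y.sing⟩⟩
  have h1 : j ≤ finrank k ↥(x.S ⊓ y.S) :=
    a.dim.symm.trans_le (Submodule.finrank_mono (le_inf hx hy))
  have h2 : finrank k ↥(x.S ⊓ y.S) < j + 1 := by
    by_contra hcon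
    have h3 : finrank k ↥(x.S ⊓ y.S) = finrank k x.S := by
      refine le_antisymm (Submodule.finrank_mono inf_le_left) ?_
      rw [x.dim]
      omega
    have h4 : x.S ⊓ y.S = x.S := Submodule.eq_of_le_of_finrank_eq inf_le_left h3
    exact hne (SGr.eq_of_le (X := x) (Y := y) (inf_eq_left.1 h4))
  have h3 := Submodule.finrank_sup_add_finrank_inf_eq x.S y.S
  rw [x.dim, y.dim] at h3
  exact ⟨SGr.mk' (x.S ⊔ y.S) hs (by omega), le_sup_left, le_sup_right⟩

end alg

section geo

variable {n : Type} [Fintype n] [DecidableEq n] {k : Type} [NontriviallyNormedField k]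
  [ProperSpace k] {σ : k →+* k} {ε : k} {J : Matrix n n k}

/-- the field `pgeo` of `PkData` -/
theorem pgeoS [Fact (Continuous σ)] (hF : Frm σ ε J) {r : ℕ} (hW : WI σ J r) :
    H766.P2.PGeo r (YS σ J r) (IS (σ := σ) (J := J)) (CS (σ := σ) (J := J) r r) where
  cl := CS_closed r r r
  clq C _ hC := cliqueS hF hW C hC
  opn L U hU y h := nearS hF h hU

/-- the field `gI` of `PkData` -/
theorem gIS {r : ℕ} (g : FormGroup σ J) (i j : ℕ) (L : YS σ J r i) (L' : YS σ J r j)
    (h : IS (σ := σ) (J := J) i j L L') : IS (σ := σ) (J := J) i j (g • L) (g • L') :=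
  (inc_smul (σ := σ) (J := J) (i := r + 1 - j) (j := r + 1 - i) g).2 h

/-- `S e → Nonempty (Y e)` for one form -/
theorem nonempty_YS {r : ℕ} (hW : WI σ J r) {e : ℕ} (he : 1 ≤ e) : Nonempty (YS σ J r e) := by
  obtain ⟨⟨Y, hY, hdY⟩, hr⟩ := hW
  obtain ⟨Z, -⟩ := exists_inc_le (i := r + 1 - e) (j := r) (by omega) (SGr.mk' Y hY hdY)
  exact ⟨Z⟩

/-- `S e → Nonempty (Y e)`, source over any field -/
theorem nonempty_of_SS {n' : Type} [Fintype n'] [DecidableEq n'] {k' : Type} [Field k']
    {σ' : k' →+* k'} {J' : Matrix n' n' k'} {r : ℕ} (hW' : WI σ' J' r) (hW : WI σ J r) (e : ℕ)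
    (X : SG.SS σ' J' r e) : Nonempty (YS σ J r e) := by
  rcases Nat.eq_zero_or_pos e with rfl | he
  · exfalso
    have h1 : finrank k' (SGr.S (show SGr σ' J' (r + 1 - 0) from X)) ≤ r :=
      hW'.2 _ (SGr.sing (show SGr σ' J' (r + 1 - 0) from X))
    have h2 : finrank k' (SGr.S (show SGr σ' J' (r + 1 - 0) from X)) = r + 1 - 0 :=
      SGr.dim (show SGr σ' J' (r + 1 - 0) from X)
    omega
  · exact nonempty_YS hW he

end geo

end Vale.Agent.P092.H702.PG
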