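import Vale.Agent.P092.H702.TG1
import Vale.Agent.P092.H370.Po4

/-!
P092, Team P, stage 2, block [P2-TG] (helper702), part 2: geometry of the target in the letters
`SGr σ J j` of helper370: the lower form of (SPAN), cliques, openness of the incidence over the
points, and `TGeo` with reversed indices: `YS r e` = singular subspaces of dimension `r + 1 - e`
(`YS r r` = points, `YS r 1` = dimension `r`), `IS i j L L'` means `L' ≤ L`.
-/

set_option linter.all false

open TopologicalSpace Topology Module Set Filter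
open scoped Matrix

namespace Vale.Agent.P092.H702.TG

open Vale.Agent.P092.H303 (FormGroup isClosed_formGroup locallyCompact_formGroup
  secondCountable_formGroup)
open Vale.Agent.P092.H100.Gr
open Vale.Agent.P092.H370.Po
open Vale.Agent.P092.H714.Cl

variable {n : Type} [Fintype n] [DecidableEq n] {k : Type} [NontriviallyNormedField k]
  {σ : k →+* k} {ε : k} {J : Matrix n n k} {i j l : ℕ}

theorem val_emb : IsEmbedding fun X : SGr σ J j => X.1 := IsEmbedding.subtypeVal

instance : Fact (Continuous (RingHom.id k)) := ⟨continuous_id⟩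

section cpt

variable [ProperSpace k]

/-- **(SPAN), lower form, singular subspaces** -/
theorem inf_atS (hl : l + 1 = j) (L : SGr σ J i) (L' : SGr σ J j) (h : ¬ Inc L' L) :
    ∃ s : SGr σ J i × SGr σ J j → SGr σ J l, ContinuousAt s (L, L') ∧
      ∀ᶠ q in 𝓝 (L, L'), q.1.S ⊓ q.2.S ≤ (s q).S ∧ (s q).S ≤ q.2.S := by
  classical
  obtain ⟨s₀, hs₀, hev⟩ := inf_at (k := k) (ι := n) hl L.1 L'.1 h
  let v : SGr σ J i × SGr σ J j → Gr k n i × Gr k n j := fun q => (q.1.1, q.2.1)
  have hv : Continuous v :=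
    (SGr.val_cont.comp continuous_fst).prodMk (SGr.val_cont.comp continuous_snd)
  have hev' : ∀ᶠ q in 𝓝 (L, L'), (v q).1.1 ⊓ (v q).2.1 ≤ (s₀ (v q)).1 ∧
      (s₀ (v q)).1 ≤ (v q).2.1 := (hv.tendsto (L, L')).eventually hev
  have h0 := hev'.self_of_nhds
  have hS0 : Sing σ J (s₀ (v (L, L'))).1 := L'.sing.mono h0.2
  let s : SGr σ J i × SGr σ J j → SGr σ J l := fun q =>
    if h : Sing σ J (s₀ (v q)).1 then ⟨s₀ (v q), h⟩ else ⟨s₀ (v (L, L')), hS0⟩
  have hse : ∀ᶠ q in 𝓝 (L, L'), (s q).1 = s₀ (v q) := by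
    filter_upwards [hev'] with q hq
    have hS : Sing σ J (s₀ (v q)).1 := q.2.sing.mono hq.2
    have e : s q = ⟨s₀ (v q), hS⟩ := dif_pos hS
    exact congrArg Subtype.val e
  refine ⟨s, ?_, ?_⟩
  · rw [ContinuousAt, val_emb.tendsto_nhds_iff]
    have h1 : Tendsto (fun q => s₀ (v q)) (𝓝 (L, L')) (𝓝 (s₀ (v (L, L')))) :=
      ContinuousAt.comp (f := v) hs₀ hv.continuousAt
    have h2 : (s (L, L')).1 = s₀ (v (L, L')) := hse.self_of_nhds
    change Tendsto (fun q => (s q).1) (𝓝 (L, L')) (𝓝 (s (L, L')).1)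
    rw [h2]
    exact h1.congr' (hse.mono fun q hq => hq.symm)
  · filter_upwards [hev', hse] with q hq hq'
    have e : (s q).S = (s₀ (v q)).1 := congrArg Subtype.val hq'
    rw [e]
    exact hq

end cpt

/-- a set of pairwise orthogonal singular subspaces lies in a singular subspace of dimension
`r`, if there is one -/
theorem clique (hF : Frm σ ε J) {r : ℕ} (Y : SGr σ J r) (hr : ∀ Z, Sing σ J Z → finrank k Z ≤ r)
    (C : Set (SGr σ J i)) (hC : ∀ x ∈ C, ∀ y ∈ C, Col x y) :
    ∃ L : SGr σ J r, ∀ x ∈ C, Inc x L := by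
  set U : Submodule k (n → k) := ⨆ x ∈ C, x.S with hU
  have h1 : ∀ Z : Submodule k (n → k), (∀ x ∈ C, Ort σ J x.S Z) → Ort σ J U Z := by
    intro Z hZ u hu z hz
    have h2 : U ≤ (perp σ J Z) := by
      rw [hU]
      refine iSup₂_le fun x hx => ?_
      intro v hv z' hz'
      exact hF.symm_zero (hZ x hx v hv z' hz')
    exact hF.symm_zero (h2 hu z hz)
  have hsing : Sing σ J U := by
    refine h1 U fun x hx => ?_
    refine Ort.symm hF (h1 x.S fun y hy => hC y hy x hx)
  obtain ⟨Z, hZ1, hZ2, hZ3⟩ := exists_above hF hsing Y.sing (hr U hsing) Y.dim.ge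
  refine ⟨SGr.mk' Z hZ2 hZ3, fun x hx => ?_⟩
  exact (le_iSup₂_of_le x hx le_rfl : x.S ≤ U).trans hZ1

/-! ### Openness -/

section opn

/-- the orbit map is open -/
theorem orbit_open [ProperSpace k] (hσ : Continuous σ) (hF : Frm σ ε J) (X : SGr σ J j) :
    IsOpenMap fun g : FormGroup σ J => g • X := by
  haveI := Fact.mk hσ
  haveI : LocallyCompactSpace (FormGroup σ J) := locallyCompact_formGroup hσ J
  haveI : SecondCountableTopology (FormGroup σ J) := secondCountable_formGroup J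
  haveI : MulAction.IsPretransitive (FormGroup σ J) (SGr σ J j) := ⟨fun X Y => by
    obtain ⟨g, -, hg, -⟩ := trans_SGr hF X Y
    exact ⟨g, hg⟩⟩
  exact isOpenMap_smul_of_sigmaCompact X

/-- **openness**: every neighbourhood of `(L, y)`, `y ≤ L`, contains incident pairs `(L', y')` for
all `y'` near `y` -/
theorem near_inc [ProperSpace k] (hσ : Continuous σ) (hF : Frm σ ε J) {y : SGr σ J i}
    {L : SGr σ J j} (h : Inc y L) {U : Set (SGr σ J j)} (hU : U ∈ 𝓝 L) :
    ∀ᶠ y' in 𝓝 y, ∃ L' ∈ U, Inc y' L' := by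
  have h1 : (fun g : FormGroup σ J => g • L) ⁻¹' U ∈ 𝓝 (1 : FormGroup σ J) := by
    refine (continuous_id.smul continuous_const).continuousAt.preimage_mem_nhds ?_
    change U ∈ 𝓝 ((1 : FormGroup σ J) • L)
    rw [one_smul]
    exact hU
  have h2 := (orbit_open hσ hF y).image_mem_nhds h1
  rw [one_smul] at h2
  filter_upwards [h2] with y' hy'
  obtain ⟨g, hg, rfl⟩ := hy'
  exact ⟨g • L, hg, (inc_smul g).2 h⟩

/-- the image on the points of an open set of incident pairs is open -/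
theorem open_inc [ProperSpace k] (hσ : Continuous σ) (hF : Frm σ ε J)
    {W : Set (SGr σ J i × SGr σ J j)} (hW : IsOpen W) :
    IsOpen {y : SGr σ J i | ∃ L : SGr σ J j, (y, L) ∈ W ∧ Inc y L} := by
  rw [isOpen_iff_mem_nhds]
  rintro y ⟨L, hL, hi⟩
  have h1 : (fun g : FormGroup σ J => (g • y, g • L)) ⁻¹' W ∈ 𝓝 (1 : FormGroup σ J) := by
    have hc : Continuous fun g : FormGroup σ J => (g • y, g • L) :=
      (continuous_id.smul continuous_const).prodMk (continuous_id.smul continuous_const)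
    refine hc.continuousAt.preimage_mem_nhds ?_
    rw [one_smul, one_smul]
    exact hW.mem_nhds hL
  have h2 := (orbit_open hσ hF y).image_mem_nhds h1
  rw [one_smul] at h2
  filter_upwards [h2] with y' hy'
  obtain ⟨g, hg, rfl⟩ := hy'
  exact ⟨g • L, hg, (inc_smul g).2 hi⟩

end opn

/-! ### `TGeo` -/

section tgeo

variable [ProperSpace k]

/-- singular subspaces of dimension `r + 1 - e` -/
def YS (σ : k →+* k) (J : Matrix n n k) (r e : ℕ) : Type := SGr σ J (r + 1 - e)

noncomputable instance metYS (r e : ℕ) : MetricSpace (YS σ J r e) :=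
  metrizableSpaceMetric (SGr σ J (r + 1 - e))

instance cptYS [Fact (Continuous σ)] (r e : ℕ) : CompactSpace (YS σ J r e) :=
  inferInstanceAs (CompactSpace (SGr σ J (r + 1 - e)))

instance actYS (r e : ℕ) : MulAction (FormGroup σ J) (YS σ J r e) :=
  inferInstanceAs (MulAction (FormGroup σ J) (SGr σ J (r + 1 - e)))

instance csYS (r e : ℕ) : ContinuousSMul (FormGroup σ J) (YS σ J r e) :=
  inferInstanceAs (ContinuousSMul (FormGroup σ J) (SGr σ J (r + 1 - e)))

/-- reversed inclusion -/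
def IS {r : ℕ} (i j : ℕ) (L : YS σ J r i) (L' : YS σ J r j) : Prop :=
  Inc (show SGr σ J (r + 1 - j) from L') (show SGr σ J (r + 1 - i) from L)

/-- orthogonality -/
def CS {r : ℕ} (i j : ℕ) (L : YS σ J r i) (L' : YS σ J r j) : Prop :=
  Col (show SGr σ J (r + 1 - i) from L) (show SGr σ J (r + 1 - j) from L')

theorem tgeoS [Fact (Continuous σ)] (r : ℕ) :
    H618.TGeo r (YS σ J r) (IS (σ := σ) (J := J)) where
  closed i j := by
    have h := (inc_closed (σ := σ) (J := J) (i := r + 1 - j) (j := r + 1 - i)).preimage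
      (f := fun q : SGr σ J (r + 1 - i) × SGr σ J (r + 1 - j) => (q.2, q.1))
      (continuous_snd.prodMk continuous_fst)
    exact h
  refl i L L' := ⟨fun h => (SGr.eq_of_le (σ := σ) (J := J) (j := r + 1 - i) h).symm,
    fun h => by subst h; exact Inc.refl (σ := σ) (J := J) (j := r + 1 - i) L⟩
  span := by
    intro i j hi hij hj L L' hLL
    have hl : (r + 1 - (j + 1)) + 1 = r + 1 - j := by omega
    obtain ⟨s, hs, hev⟩ := inf_atS (σ := σ) (J := J) hl (L : SGr σ J (r + 1 - i))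
      (L' : SGr σ J (r + 1 - j)) hLL
    refine ⟨s, hs, ?_⟩
    filter_upwards [hev] with q hq M h1 h2
    exact (le_inf h1 h2).trans hq.1

theorem CS_closed [Fact (Continuous σ)] (r i j : ℕ) :
    IsClosed {q : YS σ J r i × YS σ J r j | CS (σ := σ) (J := J) i j q.1 q.2} :=
  col_closed (σ := σ) (J := J) (i := r + 1 - i) (j := r + 1 - j) Fact.out

theorem CS_symm (hF : Frm σ ε J) {r i j : ℕ} {L : YS σ J r i} {L' : YS σ J r j}
    (h : CS (σ := σ) (J := J) i j L L') : CS (σ := σ) (J := J) j i L' L := Ort.symm hF h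

/-- points of one singular subspace are orthogonal -/
theorem CS_of_IS {r i j j' : ℕ} {L : YS σ J r i} {y : YS σ J r j} {y' : YS σ J r j'}
    (h : IS (σ := σ) (J := J) i j L y) (h' : IS (σ := σ) (J := J) i j' L y') :
    CS (σ := σ) (J := J) j j' y y' :=
  fun a ha b hb => (show SGr σ J (r + 1 - i) from L).sing a (h ha) b (h' hb)

theorem cliqueS (hF : Frm σ ε J) {r : ℕ} (hW : WI σ J r) (C : Set (YS σ J r r))
    (hC : ∀ x ∈ C, ∀ y ∈ C, CS (σ := σ) (J := J) r r x y) :
    ∃ L : YS σ J r 1, ∀ x ∈ C, IS (σ := σ) (J := J) 1 r L x := by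
  obtain ⟨⟨Y, hY, hd⟩, hr⟩ := hW
  exact clique (σ := σ) (J := J) (i := r + 1 - r) hF (SGr.mk' Y hY hd) hr C hC

theorem openS [Fact (Continuous σ)] (hF : Frm σ ε J) (r i j : ℕ)
    {W : Set (YS σ J r i × YS σ J r j)} (hW : IsOpen W) :
    IsOpen {y : YS σ J r j | ∃ L : YS σ J r i, (L, y) ∈ W ∧ IS (σ := σ) (J := J) i j L y} := by
  have h := open_inc (σ := σ) (J := J) (i := r + 1 - j) (j := r + 1 - i) Fact.out hF
    (W := (fun q : SGr σ J (r + 1 - j) × SGr σ J (r + 1 - i) => (q.2, q.1)) ⁻¹' W)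
    (hW.preimage (continuous_snd.prodMk continuous_fst))
  exact h

theorem nearS [Fact (Continuous σ)] (hF : Frm σ ε J) {r i j : ℕ} {L : YS σ J r i}
    {y : YS σ J r j} (h : IS (σ := σ) (J := J) i j L y) {U : Set (YS σ J r i)} (hU : U ∈ 𝓝 L) :
    ∀ᶠ y' in 𝓝 y, ∃ L' ∈ U, IS (σ := σ) (J := J) i j L' y' :=
  near_inc (σ := σ) (J := J) (i := r + 1 - j) (j := r + 1 - i) Fact.out hF h hU

end tgeo

end Vale.Agent.P092.H702.TG
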