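import Vale.Agent.P092.H68.Span

/-!
P092, Team P, stage 2, block [P2-TG] (helper702), part 1: annihilators of subspaces, and the lower
form of (SPAN): if `L' ⊄ L`, there is a hyperplane of `L'` which contains `L ∩ L'` and depends
continuously on `L`, `L'` at the given point.
-/

set_option linter.all false

open TopologicalSpace Topology Module Set Filter
open scoped Matrix

namespace Vale.Agent.P092.H702

open Vale.Agent.P092.H100.Gr

section alg

variable {k : Type*} [Field k] {ι : Type*} [Fintype ι]

/-- the annihilator for the dot product -/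
def An (L : Submodule k (ι → k)) : Submodule k (ι → k) where
  carrier := {y | ∀ x ∈ L, x ⬝ᵥ y = 0}
  add_mem' := by
    intro a b ha hb x hx
    rw [dotProduct_add, ha x hx, hb x hx, add_zero]
  zero_mem' := fun x _ => dotProduct_zero x
  smul_mem' := by
    intro c a ha x hx
    rw [dotProduct_smul, ha x hx, smul_zero]

theorem mem_An {L : Submodule k (ι → k)} {y : ι → k} : y ∈ An L ↔ ∀ x ∈ L, x ⬝ᵥ y = 0 := Iff.rfl

theorem An_anti {L L' : Submodule k (ι → k)} (h : L ≤ L') : An L' ≤ An L :=
  fun y hy x hx => hy x (h hx)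

theorem le_An_An (L : Submodule k (ι → k)) : L ≤ An (An L) := by
  intro x hx y hy
  rw [dotProduct_comm]
  exact hy x hx

theorem finrank_An (L : Submodule k (ι → k)) :
    finrank k L + finrank k (An L) = Fintype.card ι := by
  classical
  have h1 := Subspace.finrank_add_finrank_dualAnnihilator_eq L
  rw [finrank_fintype_fun_eq_card] at h1
  rw [← h1]
  congr 1
  have e : An L = L.dualAnnihilator.comap (dotProductEquiv k ι : (ι → k) →ₗ[k] Module.Dual k (ι → k)) := by
    ext y
    rw [Submodule.mem_comap, Submodule.mem_dualAnnihilator, mem_An]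
    refine forall₂_congr fun x _ => ?_
    have : (dotProductEquiv k ι : (ι → k) →ₗ[k] Module.Dual k (ι → k)) y x = y ⬝ᵥ x := rfl
    rw [this, dotProduct_comm]
  rw [e]
  have e2 : L.dualAnnihilator.comap (dotProductEquiv k ι : (ι → k) →ₗ[k] Module.Dual k (ι → k)) =
      L.dualAnnihilator.map ((dotProductEquiv k ι).symm : Module.Dual k (ι → k) →ₗ[k] (ι → k)) := by
    rw [Submodule.map_equiv_eq_comap_symm]
    rfl
  rw [e2]
  exact LinearEquiv.finrank_map_eq (dotProductEquiv k ι).symm L.dualAnnihilator

theorem An_An (L : Submodule k (ι → k)) : An (An L) = L := by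
  refine (Submodule.eq_of_le_of_finrank_eq (le_An_An L) ?_).symm
  have h1 := finrank_An L
  have h2 := finrank_An (An L)
  omega

theorem An_le_iff {L L' : Submodule k (ι → k)} : An L ≤ An L' ↔ L' ≤ L := by
  refine ⟨fun h => ?_, An_anti⟩
  have := An_anti h
  rwa [An_An, An_An] at this

theorem An_sup (L L' : Submodule k (ι → k)) : An (L ⊔ L') = An L ⊓ An L' := by
  refine le_antisymm (le_inf (An_anti le_sup_left) (An_anti le_sup_right)) ?_
  rintro y ⟨h1, h2⟩ x hx
  obtain ⟨a, ha, b, hb, rfl⟩ := Submodule.mem_sup.1 hx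
  rw [add_dotProduct, h1 a ha, h2 b hb, add_zero]

theorem An_inf (L L' : Submodule k (ι → k)) : An (L ⊓ L') = An L ⊔ An L' := by
  rw [← An_An (An L ⊔ An L'), An_sup, An_An, An_An]

/-- the annihilator, as a map of Grassmannians -/
def anG {i l : ℕ} (h : i + l = Fintype.card ι) (L : Gr k ι i) : Gr k ι l :=
  ⟨An L.1, by
    have h1 := finrank_An L.1
    have h2 : finrank k L.1 = i := L.2
    omega⟩

theorem anG_val {i l : ℕ} (h : i + l = Fintype.card ι) (L : Gr k ι i) :
    (anG h L).1 = An L.1 := rfl

end alg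

/-- a map to a compact space with a closed graph is continuous -/
theorem continuous_of_closed_graph {X Y : Type*} [TopologicalSpace X] [TopologicalSpace Y]
    [CompactSpace Y] {f : X → Y} (h : IsClosed {q : X × Y | f q.1 = q.2}) : Continuous f := by
  rw [continuous_iff_isClosed]
  intro C hC
  have e : f ⁻¹' C = Prod.fst '' ({q : X × Y | f q.1 = q.2} ∩ Prod.snd ⁻¹' C) := by
    ext x
    constructor
    · intro hx
      exact ⟨(x, f x), ⟨rfl, hx⟩, rfl⟩
    · rintro ⟨⟨x', y⟩, ⟨h1, h2⟩, rfl⟩
      have h1' : f x' = y := h1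
      change f x' ∈ C
      rw [h1']
      exact h2
  rw [e]
  exact isClosedMap_fst_of_compactSpace _ (h.inter (hC.preimage continuous_snd))

section top

variable {k : Type*} [NontriviallyNormedField k] {ι : Type*} [Fintype ι] {i j l : ℕ}

/-- closedness of relations given by a semi-bilinear form -/
theorem form_closed {σ : k →+* k} (B : (ι → k) → (ι → k) → k)
    (hc : Continuous fun q : (ι → k) × (ι → k) => B q.1 q.2)
    (hal : ∀ x x' y, B (x + x') y = B x y + B x' y) (hsl : ∀ (a : k) x y, B (a • x) y = a * B x y)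
    (har : ∀ x y y', B x (y + y') = B x y + B x y')
    (hsr : ∀ (a : k) x y, B x (a • y) = σ a * B x y) :
    IsClosed {q : Gr k ι i × Gr k ι j | ∀ x ∈ q.1.1, ∀ y ∈ q.2.1, B x y = 0} := by
  have hq := (sp_oq (k := k) (ι := ι) (j := i)).prodMap (sp_oq (k := k) (ι := ι) (j := j))
  rw [← hq.isQuotientMap.isClosed_preimage]
  have e : Prod.map sp sp ⁻¹' {q : Gr k ι i × Gr k ι j | ∀ x ∈ q.1.1, ∀ y ∈ q.2.1, B x y = 0} =
      ⋂ (b : Fin i), ⋂ (c : Fin j), {p : Fr k ι i × Fr k ι j | B (p.1.1 b) (p.2.1 c) = 0} := by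
    ext p
    simp only [mem_preimage, mem_iInter, mem_setOf_eq]
    constructor
    · intro h b c
      exact h _ (Submodule.subset_span ⟨b, rfl⟩) _ (Submodule.subset_span ⟨c, rfl⟩)
    · intro h x hx y hy
      have h0 : ∀ x, B x 0 = 0 := fun x => by
        have := har x 0 0
        rw [add_zero] at this
        exact left_eq_add.1 this
      have h0' : ∀ y, B 0 y = 0 := fun y => by
        have := hal 0 0 y
        rw [add_zero] at this
        exact left_eq_add.1 this
      have h1 : ∀ b, ∀ y ∈ (sp p.2).1, B (p.1.1 b) y = 0 := by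
        intro b y hy
        refine Submodule.span_induction (p := fun y _ => B (p.1.1 b) y = 0) ?_ ?_ ?_ ?_ hy
        · rintro _ ⟨c, rfl⟩
          exact h b c
        · exact h0 _
        · intro u v _ _ hu hv
          rw [har, hu, hv, add_zero]
        · intro a u _ hu
          rw [hsr, hu, mul_zero]
      refine Submodule.span_induction (p := fun x _ => B x y = 0) ?_ ?_ ?_ ?_ hx
      · rintro _ ⟨b, rfl⟩
        exact h1 b y hy
      · exact h0' _
      · intro u v _ _ hu hv
        rw [hal, hu, hv, add_zero]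
      · intro a u _ hu
        rw [hsl, hu, mul_zero]
  rw [e]
  refine isClosed_iInter fun b => isClosed_iInter fun c => ?_
  refine isClosed_eq ?_ continuous_const
  refine hc.comp (f := fun p : Fr k ι i × Fr k ι j => (p.1.1 b, p.2.1 c)) ?_
  exact ((continuous_apply b).comp (fr_val_cont.comp continuous_fst)).prodMk
    ((continuous_apply c).comp (fr_val_cont.comp continuous_snd))

theorem dot_closed :
    IsClosed {q : Gr k ι i × Gr k ι j | ∀ x ∈ q.1.1, ∀ y ∈ q.2.1, x ⬝ᵥ y = 0} := by
  refine form_closed (σ := RingHom.id k) (fun x y => x ⬝ᵥ y) ?_ (fun x x' y => add_dotProduct _ _ _)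
    (fun a x y => by rw [smul_dotProduct, smul_eq_mul]) (fun x y y' => dotProduct_add _ _ _)
    (fun a x y => by rw [dotProduct_smul, smul_eq_mul, RingHom.id_apply])
  exact continuous_finset_sum _ fun b _ =>
    ((continuous_apply b).comp continuous_fst).mul ((continuous_apply b).comp continuous_snd)

variable [ProperSpace k]

theorem anG_cont (h : i + l = Fintype.card ι) : Continuous (anG h : Gr k ι i → Gr k ι l) := by
  refine continuous_of_closed_graph ?_
  have e : {q : Gr k ι i × Gr k ι l | anG h q.1 = q.2} =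
      {q : Gr k ι i × Gr k ι l | ∀ x ∈ q.1.1, ∀ y ∈ q.2.1, x ⬝ᵥ y = 0} := by
    ext q
    constructor
    · rintro hq x hx y hy
      have hq' : anG h q.1 = q.2 := hq
      rw [← hq'] at hy
      exact hy x hx
    · intro hq
      exact (eq_of_le (L := q.2) (L' := anG h q.1) fun y hy x hx => hq x hx y hy).symm
  rw [e]
  exact dot_closed

/-- **(SPAN), lower form** -/
theorem inf_at {l : ℕ} (hl : l + 1 = j) (L : Gr k ι i) (L' : Gr k ι j) (h : ¬ L'.1 ≤ L.1) :
    ∃ s : Gr k ι i × Gr k ι j → Gr k ι l, ContinuousAt s (L, L') ∧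
      ∀ᶠ q in 𝓝 (L, L'), q.1.1 ⊓ q.2.1 ≤ (s q).1 ∧ (s q).1 ≤ q.2.1 := by
  have hi : i ≤ Fintype.card ι := by
    have h1 := finrank_An L.1
    have h2 : finrank k L.1 = i := L.2
    omega
  have hj : j ≤ Fintype.card ι := by
    have h1 := finrank_An L'.1
    have h2 : finrank k L'.1 = j := L'.2
    omega
  obtain ⟨a, ha⟩ := Nat.exists_eq_add_of_le hi
  obtain ⟨b, hb⟩ := Nat.exists_eq_add_of_le hj
  have ha' : i + a = Fintype.card ι := ha.symm
  have hb' : j + b = Fintype.card ι := hb.symm
  obtain ⟨s₀, hs₀, hev⟩ := H68.Gras.span_at (k := k) (ι := ι) rfl (anG ha' L) (anG hb' L')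
    (fun hle => h (An_le_iff.1 hle))
  have hc : Continuous fun q : Gr k ι i × Gr k ι j => (anG ha' q.1, anG hb' q.2) :=
    ((anG_cont ha').comp continuous_fst).prodMk ((anG_cont hb').comp continuous_snd)
  have hn : b + 1 + l = Fintype.card ι := by omega
  refine ⟨fun q => anG hn (s₀ (anG ha' q.1, anG hb' q.2)), ?_, ?_⟩
  · refine (anG_cont hn).continuousAt.comp ?_
    exact ContinuousAt.comp (f := fun q : Gr k ι i × Gr k ι j => (anG ha' q.1, anG hb' q.2)) hs₀
      hc.continuousAt
  · filter_upwards [hc.continuousAt.eventually hev] with q hq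
    obtain ⟨h1, h2⟩ := hq
    constructor
    · have := An_anti h2
      change _ ≤ An _
      refine le_trans ?_ this
      change _ ≤ An (An q.1.1 ⊔ An q.2.1)
      rw [← An_inf, An_An]
    · have := An_anti h1
      change An _ ≤ _
      refine this.trans ?_
      change An (An q.2.1) ≤ _
      rw [An_An]

end top

end Vale.Agent.P092.H702
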